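/-
Propeller (S0334, row 215): basic definitions shared by all modules.
See BLUEPRINT.md in this folder for the paper proof.
-/
import Mathlib

set_option autoImplicit false
open MeasureTheory ProbabilityTheory Real
open scoped RealInnerProductSpace ENNReal

namespace Crest.Agent.Propeller

/-- The target constant `9/(8π)`. -/
noncomputable def R0 : ℝ := 9 / (8 * π)

/-- Standard normal density. -/
noncomputable def phi (x : ℝ) : ℝ := Real.exp (-x ^ 2 / 2) / Real.sqrt (2 * π)

/-- Standard normal cdf. -/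
noncomputable def Phi (x : ℝ) : ℝ := (gaussianReal 0 1).real (Set.Iic x)

/-- Standard normal upper tail. -/
noncomputable def Qf (x : ℝ) : ℝ := (gaussianReal 0 1).real (Set.Ioi x)

section
variable {E : Type*} [NormedAddCommGroup E] [InnerProductSpace ℝ E] [FiniteDimensional ℝ E]
  [MeasurableSpace E] [BorelSpace E]
variable {ι : Type*} [Fintype ι] [Nonempty ι]

/-- `max_i ⟪g, z i⟫`. -/
noncomputable def mx (z : ι → E) (g : E) : ℝ :=
  Finset.univ.sup' Finset.univ_nonempty fun i => ⟪g, z i⟫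

/-- `F(z) = E max_i ⟪g, z i⟫`. -/
noncomputable def Fz (z : ι → E) : ℝ := ∫ g, mx z g ∂stdGaussian E

/-- Centered sum of squares `S(z) = ∑ ‖z i‖² - ‖∑ z i‖²/k = ∑ ‖z i - z̄‖²`. -/
noncomputable def Sz (z : ι → E) : ℝ :=
  ∑ i, ‖z i‖ ^ 2 - ‖∑ i, z i‖ ^ 2 / (Fintype.card ι : ℝ)

end

/-- Model space. -/
abbrev V (n : ℕ) := EuclideanSpace ℝ (Fin n)

/-- The finite form of the Propeller inequality at level `k+1` points. -/
def PP (k : ℕ) : Prop :=
  ∀ (n : ℕ) (z : Fin (k + 1) → V n), Fz z ^ 2 ≤ R0 * Sz z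

end Crest.Agent.Propeller
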