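/-
M3 Slice: decomposition of the standard Gaussian along a unit vector, laws of linear functionals,
1-D Chebyshev association.
-/
import Crest.Agent.Lib.PropellerH66.Basic

set_option autoImplicit false
open MeasureTheory ProbabilityTheory Real
open scoped RealInnerProductSpace ENNReal

namespace Crest.Agent.Propeller

variable {E : Type*} [NormedAddCommGroup E] [InnerProductSpace ℝ E] [FiniteDimensional ℝ E]
  [MeasurableSpace E] [BorelSpace E]

/-- Projection onto the orthogonal complement of a unit vector `u`. -/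
noncomputable def perp (u x : E) : E := x - ⟪x, u⟫ • u

/-- `y • u + perp u g` with `y ~ N(0,1)`, `g ~ stdGaussian` is again standard Gaussian.
Proof idea: `Measure.ext_of_charFun`, `charFun_stdGaussian`, product integral. -/
theorem slice_map (u : E) (hu : ‖u‖ = 1) :
    ((gaussianReal 0 1).prod (stdGaussian E)).map (fun p : ℝ × E => p.1 • u + perp u p.2)
      = stdGaussian E := by
  sorry

/-- Lintegral form of `slice_map`. -/
theorem lintegral_slice (u : E) (hu : ‖u‖ = 1) (f : E → ℝ≥0∞) (hf : Measurable f) :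
    ∫⁻ g, f g ∂stdGaussian E
      = ∫⁻ y, ∫⁻ g, f (y • u + perp u g) ∂stdGaussian E ∂gaussianReal 0 1 := by
  sorry

/-- Law of a linear functional. -/
theorem map_inner_stdGaussian (v : E) :
    (stdGaussian E).map (fun g => ⟪g, v⟫) = gaussianReal 0 (Real.toNNReal (‖v‖ ^ 2)) := by
  sorry

/-- `P(⟪g,v⟫ < θ) = Φ(θ/‖v‖)` for `v ≠ 0`. -/
theorem measure_inner_lt (v : E) (hv : v ≠ 0) (θ : ℝ) :
    stdGaussian E {g | ⟪g, v⟫ < θ} = ENNReal.ofReal (Phi (θ / ‖v‖)) := by
  sorry

/-- 1-D Chebyshev association: for a probability measure on `ℝ`, `f` monotone nonnegative,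
`∫_{y<y0} f ≤ μ(y<y0) ∫ f`. -/
theorem chebyshev_assoc (μ : Measure ℝ) [IsProbabilityMeasure μ] (f : ℝ → ℝ≥0∞) (hf : Monotone f)
    (y0 : ℝ) :
    ∫⁻ y in Set.Iio y0, f y ∂μ ≤ μ (Set.Iio y0) * ∫⁻ y, f y ∂μ := by
  sorry

end Crest.Agent.Propeller
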