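/-
M5 Assoc: peeling association for nonpositive covariances.
-/
import Crest.Agent.Lib.PropellerH66.Slice

set_option autoImplicit false
open MeasureTheory ProbabilityTheory Real
open scoped RealInnerProductSpace ENNReal

namespace Crest.Agent.Propeller

variable {E : Type*} [NormedAddCommGroup E] [InnerProductSpace ℝ E] [FiniteDimensional ℝ E]
  [MeasurableSpace E] [BorelSpace E]
variable {ι : Type*} [DecidableEq ι]

/-- Peel one coordinate `x` off an intersection of half spaces when `⟪w i, w x⟫ ≤ 0` for `i ∈ S`.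
Proof: `w x = 0` trivial; otherwise slice along `u = w x/‖w x‖`; given `y`, the remaining event is
`⟪g, perp u (w i)⟫ < θ i - y ⟪w i,u⟫` whose probability `f y` is monotone in `y`; use
`chebyshev_assoc`. -/
theorem peel (S : Finset ι) (w : ι → E) (θ : ι → ℝ) (x : ι) (hx : x ∉ S)
    (hneg : ∀ i ∈ S, ⟪w i, w x⟫ ≤ 0) :
    stdGaussian E {g | ⟪g, w x⟫ < θ x ∧ ∀ i ∈ S, ⟪g, w i⟫ < θ i}
      ≤ stdGaussian E {g | ⟪g, w x⟫ < θ x} * stdGaussian E {g | ∀ i ∈ S, ⟪g, w i⟫ < θ i} := by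
  sorry

/-- Iterated peeling: `P(E_T ∩ E_X) ≤ P(E_T) ∏_{x∈X} P(E_x)`. -/
theorem assoc_prod (T X : Finset ι) (hTX : Disjoint T X) (w : ι → E) (θ : ι → ℝ)
    (hneg : ∀ a ∈ T ∪ X, ∀ b ∈ T ∪ X, a ≠ b → ⟪w a, w b⟫ ≤ 0) :
    stdGaussian E {g | ∀ i ∈ T ∪ X, ⟪g, w i⟫ < θ i}
      ≤ stdGaussian E {g | ∀ i ∈ T, ⟪g, w i⟫ < θ i} *
          ∏ x ∈ X, stdGaussian E {g | ⟪g, w x⟫ < θ x} := by
  sorry

end Crest.Agent.Propeller
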