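/-
M7 Cap: bathtub bounds for cells. Half-space version (any measurable set) and cone version in
dimension n.
-/
import Crest.Agent.Lib.PropellerH66.Slice

set_option autoImplicit false
open MeasureTheory ProbabilityTheory Real
open scoped RealInnerProductSpace ENNReal

namespace Crest.Agent.Propeller

/-- `E[(N - z)₊] = φ(z) - z Q(z)` and the half-space bathtub:
if `A` is measurable, `u` a unit vector, `0 < z` and `φ(z) ≤ ⟪∫_A x, u⟫` then `Q(z) ≤ γ(A)`.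
Proof: `E[(⟪g,u⟫ - z)1_A] ≤ E[(⟪g,u⟫ - z)₊] = φ(z) - zQ(z)`. -/
theorem cap_halfspace {E : Type*} [NormedAddCommGroup E] [InnerProductSpace ℝ E]
    [FiniteDimensional ℝ E] [MeasurableSpace E] [BorelSpace E]
    (A : Set E) (hA : MeasurableSet A) (u : E) (hu : ‖u‖ = 1) (z : ℝ) (hz : 0 < z)
    (h : phi z ≤ ⟪∫ x in A, x ∂stdGaussian E, u⟫) :
    Qf z ≤ (stdGaussian E).real A := by
  sorry

/-- The cap moment `J_n(τ) = φ(0)(1-τ²)^{(n-1)/2}`. -/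
noncomputable def Jn (n : ℕ) (τ : ℝ) : ℝ :=
  phi 0 * (1 - τ ^ 2) ^ (((n : ℝ) - 1) / 2)

/-- The cap mass `a_n(τ) = (1/2) ∫_τ^1 (1-v²)^{(n-3)/2} dv / ∫_0^1 (1-v²)^{(n-3)/2} dv`. -/
noncomputable def capA (n : ℕ) (τ : ℝ) : ℝ :=
  (1 / 2) * (∫ v in τ..1, (1 - v ^ 2) ^ (((n : ℝ) - 3) / 2)) /
    (∫ v in (0 : ℝ)..1, (1 - v ^ 2) ^ (((n : ℝ) - 3) / 2))

/-- Moment of the cap. Proof: with `x = (x₁, x')`, `χ = ‖x'‖`, `τ' = τ/√(1-τ²)`: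
`E[x₁; x₁ > τ'χ] = E φ(τ'χ) = φ(0) E exp(-τ'²χ²/2) = φ(0)(1+τ'²)^{-(n-1)/2}`. -/
theorem cap_moment (n : ℕ) (hn : 3 ≤ n) (u : V n) (hu : ‖u‖ = 1) (τ : ℝ) (h0 : 0 ≤ τ) (h1 : τ < 1) :
    ∫ x in {x : V n | τ * ‖x‖ < ⟪x, u⟫}, ⟪x, u⟫ ∂stdGaussian (V n) = Jn n τ := by
  sorry

/-- Mass of the cap. Proof: `γ(cap) = E Q(τ'χ)`; write `Q(τ'r) = ∫_{τ'}^∞ r φ(vr) dv`, polar
coordinates in `x'` (`MeasureTheory.integral_fun_norm_addHaar`) give density `∝ (1+v²)^{-n/2}` in `v`;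
substitute `v = w/√(1-w²)`; normalise by `γ(cap at τ=0) = 1/2`. -/
theorem cap_mass (n : ℕ) (hn : 3 ≤ n) (u : V n) (hu : ‖u‖ = 1) (τ : ℝ) (h0 : 0 ≤ τ) (h1 : τ < 1) :
    (stdGaussian (V n)).real {x : V n | τ * ‖x‖ < ⟪x, u⟫} = capA n τ := by
  sorry

/-- Radial independence for cones: for a measurable cone `C` (closed under positive scaling),
`E[‖g‖; C] = E‖g‖ · γ(C)`. Proof: Mathlib polar decomposition
`measurePreserving_homeomorphUnitSphereProd` or the Laplace/scaling argument. -/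
theorem cone_radial (n : ℕ) (C : Set (V n)) (hC : MeasurableSet C)
    (hcone : ∀ x ∈ C, ∀ c : ℝ, 0 < c → c • x ∈ C) :
    ∫ x in C, ‖x‖ ∂stdGaussian (V n)
      = (∫ x, ‖x‖ ∂stdGaussian (V n)) * (stdGaussian (V n)).real C := by
  sorry

/-- Cone bathtub. If `A` is a measurable cone in dimension `n ≥ 3`, `u` unit, `0 < τ < 1` and
`J_n(τ) ≤ ⟪∫_A x, u⟫` then `a_n(τ) ≤ γ(A)`.
Proof: pointwise `(⟪x,u⟫-τ‖x‖)1_A ≤ (⟪x,u⟫-τ‖x‖)1_{cap}`, integrate, use `cone_radial` on `A` and on the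
cap, `cap_moment`. -/
theorem cap_cone (n : ℕ) (hn : 3 ≤ n) (A : Set (V n)) (hA : MeasurableSet A)
    (hcone : ∀ x ∈ A, ∀ c : ℝ, 0 < c → c • x ∈ A) (u : V n) (hu : ‖u‖ = 1) (τ : ℝ) (h0 : 0 < τ)
    (h1 : τ < 1) (h : Jn n τ ≤ ⟪∫ x in A, x ∂stdGaussian (V n), u⟫) :
    capA n τ ≤ (stdGaussian (V n)).real A := by
  sorry

end Crest.Agent.Propeller
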