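/-
M1 Partition: from the finite inequality to the statement; transport; elementary properties of Fz, Sz.
M2 (small k) at the end.
-/
import Crest.Agent.Lib.PropellerH66.Basic

set_option autoImplicit false
open MeasureTheory ProbabilityTheory Real
open scoped RealInnerProductSpace ENNReal

namespace Crest.Agent.Propeller

universe u v

section
variable {E : Type*} [NormedAddCommGroup E] [InnerProductSpace ℝ E] [FiniteDimensional ℝ E]
  [MeasurableSpace E] [BorelSpace E]
variable {ι : Type*} [Fintype ι] [Nonempty ι]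

theorem integrable_mx (z : ι → E) : Integrable (mx z) (stdGaussian E) := by
  sorry

theorem measurable_mx (z : ι → E) : Measurable (mx z) := by
  sorry

/-- `F` is Lipschitz in `z`; used for compactness. -/
theorem continuous_Fz : Continuous (fun z : ι → E => Fz z) := by
  sorry

theorem Fz_smul (c : ℝ) (hc : 0 ≤ c) (z : ι → E) : Fz (fun i => c • z i) = c * Fz z := by
  sorry

/-- Translation invariance. -/
theorem Fz_add_const (z : ι → E) (a : E) : Fz (fun i => z i + a) = Fz z := by
  sorry

/-- Gram invariance: `Fz` depends only on the Gram matrix; the same for any measurable function of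
the vector of inner products.  Proof: both push forwards to `ι → ℝ` have the same characteristic
function `exp(-‖∑ t_i z_i‖²/2)`; `Measure.ext_of_charFun`. -/
theorem map_inner_eq_of_gram {F : Type*} [NormedAddCommGroup F] [InnerProductSpace ℝ F]
    [FiniteDimensional ℝ F] [MeasurableSpace F] [BorelSpace F] (z : ι → E) (z' : ι → F)
    (h : ∀ i j, ⟪z i, z j⟫ = ⟪z' i, z' j⟫) :
    (stdGaussian E).map (fun g i => ⟪g, z i⟫) = (stdGaussian F).map (fun g i => ⟪g, z' i⟫) := by
  sorry

theorem Fz_eq_of_gram {F : Type*} [NormedAddCommGroup F] [InnerProductSpace ℝ F]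
    [FiniteDimensional ℝ F] [MeasurableSpace F] [BorelSpace F] (z : ι → E) (z' : ι → F)
    (h : ∀ i j, ⟪z i, z j⟫ = ⟪z' i, z' j⟫) : Fz z = Fz z' := by
  sorry

/-- A family of `k` centred vectors in any `E` has the same Gram matrix as a family in `V n` for any
`n ≥ k - 1` (and uncentred `k` vectors for `n ≥ k`). -/
theorem exists_gram_model (k : ℕ) (z : Fin (k + 1) → E) (hz : ∑ i, z i = 0) (n : ℕ) (hn : k ≤ n) :
    ∃ z' : Fin (k + 1) → V n, ∀ i j, ⟪z i, z j⟫ = ⟪z' i, z' j⟫ := by
  sorry

/-- Any `E`: the finite inequality transports from the model spaces. -/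
theorem PP_general (k : ℕ) (h : PP k) (z : Fin (k + 1) → E) : Fz z ^ 2 ≤ R0 * Sz z := by
  sorry

/-- Cells give: `∑ ‖m_i‖² ≤ F(m)`, `∑ m_i = 0`. With the finite inequality: `∑‖m_i‖² ≤ R0`. -/
theorem partition_le (k : ℕ) (h : PP k) (A : Fin (k + 1) → Set E) (hA : ∀ i, MeasurableSet (A i))
    (hdisj : Pairwise fun i j => Disjoint (A i) (A j)) (hcov : ⋃ i, A i = Set.univ) :
    ∑ i, ‖∫ x in A i, x ∂stdGaussian E‖ ^ 2 ≤ R0 := by
  sorry
end

/-- The final reduction: the finite inequality for all `k` implies S0334's statement. -/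
theorem statement_of_PP (hP : ∀ k, PP k)
    (E : Type u) [NormedAddCommGroup E] [InnerProductSpace ℝ E] [FiniteDimensional ℝ E]
    [MeasurableSpace E] [BorelSpace E]
    (ι : Type v) [Fintype ι] (A : ι → Set E)
    (hA : ∀ i, MeasurableSet (A i))
    (hdisj : Pairwise fun i j => Disjoint (A i) (A j))
    (hcov : ⋃ i, A i = Set.univ) :
    ∑ i, ‖∫ x in A i, x ∂stdGaussian E‖ ^ 2 ≤ 9 / (8 * Real.pi) := by
  sorry

/-- `k = 1`. -/
theorem PP_zero : PP 0 := by
  sorry

/-- `k = 2`: `F = ‖z₁-z₂‖/√(2π)`, `S = ‖z₁-z₂‖²/2`. -/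
theorem PP_one : PP 1 := by
  sorry

/-- `k = 3`: `max - min = (|a-b|+|b-c|+|a-c|)/2` pointwise, `E min = -E max` by `g ↦ -g`, so
`F = (d₁₂+d₁₃+d₂₃)/(2√(2π))`, and `(∑d)² ≤ 3∑d² = 9 S`. -/
theorem PP_two : PP 2 := by
  sorry

end Crest.Agent.Propeller
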