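/-
M4 Config: maximiser, stationarity, obtuseness, nontriviality of deletion.
-/
import Crest.Agent.Lib.PropellerH66.Partition

set_option autoImplicit false
open MeasureTheory ProbabilityTheory Real
open scoped RealInnerProductSpace ENNReal

namespace Crest.Agent.Propeller

/-- Deletion gain: `L_j = E (⟪g,z_j⟫ - max_{i≠j} ⟪g,z_i⟫)₊`, `m+2` points. -/
noncomputable def Lj {n m : ℕ} (z : Fin (m + 2) → V n) (j : Fin (m + 2)) : ℝ :=
  ∫ g, max 0 (⟪g, z j⟫ - mx (fun i : Fin (m + 1) => z (j.succAbove i)) g) ∂stdGaussian (V n)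

/-- A hypothetical maximiser at level `k = m+2` points, in ambient dimension `n ≥ k-1`. -/
structure Config (m n : ℕ) where
  z : Fin (m + 2) → V n
  A : Fin (m + 2) → Set (V n)
  sum_zero : ∑ i, z i = 0
  S_gt : R0 < ∑ i, ‖z i‖ ^ 2
  meas : ∀ i, MeasurableSet (A i)
  disj : Pairwise fun i j => Disjoint (A i) (A j)
  cov : ⋃ i, A i = Set.univ
  cone : ∀ i, ∀ x ∈ A i, ∀ c : ℝ, 0 < c → c • x ∈ A i
  moment : ∀ i, z i = ∫ x in A i, x ∂stdGaussian (V n)
  obtuse : Pairwise fun a b => ⟪z a, z b⟫ < 0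
  nt : ∀ j, (((m : ℝ) + 2) / ((m : ℝ) + 1)) * ‖z j‖ ^ 2 < 2 * Lj z j

/-- If the inequality fails at `m+2` points but holds below, a `Config` exists (any `n ≥ m+1`).
Steps: (a) centre, normalise, move to `V n` by `exists_gram_model`; compactness of
`{z : ∑ z = 0, ∑‖z‖²=1}` and `continuous_Fz` give a maximiser with `W = F²/S > R0`; scale to `F = S = W`.
(b) Voronoi cells `A i` (ties to the smallest index), cones, `F = ∑⟪z_i,m_i⟫`.
(c) `∑‖m‖² ≤ F(m) ≤ √(W ∑‖m‖²)` (maximality of `W`, `∑m=0`), so `∑‖m‖²≤W`, and Cauchy–Schwarz equality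
gives `z = m`.
(d) merging two cells and `partition_le` at `m+1` points: `W + 2⟪z_a,z_b⟫ ≤ R0`, so obtuse.
(e) deleting `j`: `F(z∖j) = W - L_j`, `S(z∖j) = W - c‖z_j‖²`, `(W-L)² ≤ R0 (W - c s²)` gives
`c s² < 2 L`. -/
theorem exists_config (m n : ℕ) (hn : m + 1 ≤ n) (hlow : ∀ l ≤ m, PP l) (hfail : ¬ PP (m + 1)) :
    Nonempty (Config m n) := by
  sorry

end Crest.Agent.Propeller
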