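/-
M8 LForm: the deletion gain as an iterated integral. Data attached to a vertex `j`.
-/
import Crest.Agent.Lib.PropellerH66.Config
import Crest.Agent.Lib.PropellerH66.Slice

set_option autoImplicit false
open MeasureTheory ProbabilityTheory Real
open scoped RealInnerProductSpace ENNReal

namespace Crest.Agent.Propeller

variable {m n : ℕ}

/-- `q_i = -⟪z_i,z_j⟫/s²`. -/
noncomputable def qq (z : Fin (m + 2) → V n) (j : Fin (m + 2)) (i : Fin (m + 1)) : ℝ :=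
  -⟪z (j.succAbove i), z j⟫ / ‖z j‖ ^ 2

/-- `w_i = z_i - ⟪z_i,u⟫u`, `u = z_j/s`. -/
noncomputable def ww (z : Fin (m + 2) → V n) (j : Fin (m + 2)) (i : Fin (m + 1)) : V n :=
  perp ((‖z j‖)⁻¹ • z j) (z (j.succAbove i))

theorem qq_nonneg (c : Config m n) (j) (i) : 0 ≤ qq c.z j i := by
  sorry

theorem sum_qq (c : Config m n) (j) : ∑ i, qq c.z j i = 1 := by
  sorry

theorem sum_ww (c : Config m n) (j) : ∑ i, ww c.z j i = 0 := by
  sorry

theorem inner_ww_nonpos (c : Config m n) (j) (a b) (hab : a ≠ b) :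
    ⟪ww c.z j a, ww c.z j b⟫ ≤ 0 := by
  sorry

theorem norm_ww_sq (c : Config m n) (j) (i) :
    ‖ww c.z j i‖ ^ 2 = ‖c.z (j.succAbove i)‖ ^ 2 - (qq c.z j i) ^ 2 * ‖c.z j‖ ^ 2 := by
  sorry

/-- The event probability `p(n,t)`. -/
noncomputable def pr (z : Fin (m + 2) → V n) (j : Fin (m + 2)) (y t : ℝ) : ℝ≥0∞ :=
  stdGaussian (V n) {g | ∀ i, ⟪g, ww z j i⟫ < ‖z j‖ * (t + qq z j i * y)}

/-- Layer cake + slice along `u = z_j/s`:
`L_j ≤ s ∫_{y>0} φ(y) ∫_{-y/(m+1) < t < y} p(y,t) dt dy`. -/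
theorem Lj_le (c : Config m n) (j : Fin (m + 2)) :
    ENNReal.ofReal (Lj c.z j) ≤ ENNReal.ofReal ‖c.z j‖ *
      ∫⁻ y in Set.Ioi (0 : ℝ), ENNReal.ofReal (phi y) *
        ∫⁻ t in Set.Ioo (-y / ((m : ℝ) + 1)) y, pr c.z j y t := by
  sorry

/-- `(y,t) ↦ p(y,t)` is measurable (for Tonelli). -/
theorem measurable_pr (z : Fin (m + 2) → V n) (j : Fin (m + 2)) :
    Measurable (fun q : ℝ × ℝ => pr z j q.1 q.2) := by
  sorry

end Crest.Agent.Propeller
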