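/-
M6 Triangle: pair small ball.  Two nested 1-D slices, density ≤ φ(0) each time.
-/
import Crest.Agent.Lib.PropellerH66.Slice

set_option autoImplicit false
open MeasureTheory ProbabilityTheory Real
open scoped RealInnerProductSpace ENNReal

namespace Crest.Agent.Propeller

variable {E : Type*} [NormedAddCommGroup E] [InnerProductSpace ℝ E] [FiniteDimensional ℝ E]
  [MeasurableSpace E] [BorelSpace E]
variable {ι : Type*} [DecidableEq ι]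

/-- Gram determinant of a pair. -/
noncomputable def gramDet (a b : E) : ℝ := ‖a‖ ^ 2 * ‖b‖ ^ 2 - ⟪a, b⟫ ^ 2

/-- Triangle bound. `Δ = √(gramDet a b) > 0`.
`P(⟪g,a⟫<α, ⟪g,b⟫<β, γ₀<⟪g,a+b⟫) ≤ (α+β-γ₀)₊² / (4π Δ)`.
Proof: `⟪g,a⟫ = ‖a‖ n₁`, `⟪g,b⟫ = c n₁ + d n₂`, `d = Δ/‖a‖`; `n₁,n₂` iid by two slices; for fixed
`n₁` the `n₂`-interval has length `(β-γ₀+‖a‖n₁)₊/d`, probability ≤ φ(0)·length; integrate in `n₁` with
density ≤ φ(0): `φ(0)² (1/(‖a‖ d)) ∫ (β-γ₀+x)₊ 1_{x<α} dx = (1/2π) (α+β-γ₀)₊²/(2Δ)`. -/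
theorem triangle_bound (a b : E) (hΔ : 0 < gramDet a b) (α β γ₀ : ℝ) :
    stdGaussian E {g | ⟪g, a⟫ < α ∧ ⟪g, b⟫ < β ∧ γ₀ < ⟪g, a + b⟫}
      ≤ ENNReal.ofReal ((max (α + β - γ₀) 0) ^ 2 / (4 * π * Real.sqrt (gramDet a b))) := by
  sorry

/-- Small ball for a family summing to zero on `T`, using a pair `a ≠ b` in `T`. -/
theorem smallball_sum_zero (T : Finset ι) (v : ι → E) (hv : ∑ i ∈ T, v i = 0) (a b : ι)
    (ha : a ∈ T) (hb : b ∈ T) (hab : a ≠ b) (hΔ : 0 < gramDet (v a) (v b)) (θ : ι → ℝ) :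
    stdGaussian E {g | ∀ i ∈ T, ⟪g, v i⟫ < θ i}
      ≤ ENNReal.ofReal ((max (∑ i ∈ T, θ i) 0) ^ 2 / (4 * π * Real.sqrt (gramDet (v a) (v b)))) := by
  sorry

/-- Small ball with a tail `U`: `∑_T w i = -U`.  `P_U` is the projection orthogonal to `U`
(identity if `U = 0`).  Slice along `U/‖U‖`, apply `smallball_sum_zero` to `P_U w i`, and use
`E (Θ + y‖U‖)₊² ≤ Θ² + ‖U‖²`. -/
theorem smallball_tail (T : Finset ι) (w : ι → E) (U : E) (hU : ∑ i ∈ T, w i = -U) (a b : ι)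
    (ha : a ∈ T) (hb : b ∈ T) (hab : a ≠ b)
    (v : ι → E) (hv : ∀ i, v i = w i - (⟪w i, U⟫ / ‖U‖ ^ 2) • U)
    (hΔ : 0 < gramDet (v a) (v b)) (θ : ι → ℝ) :
    stdGaussian E {g | ∀ i ∈ T, ⟪g, w i⟫ < θ i}
      ≤ ENNReal.ofReal (((∑ i ∈ T, θ i) ^ 2 + ‖U‖ ^ 2) / (4 * π * Real.sqrt (gramDet (v a) (v b)))) := by
  sorry

/-- Node rule. `v` on `T` sums to zero with pairwise nonpositive inner products; for a node `c` and a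
nonempty `N ⊆ T \ {c}` there is `i ∈ N` with `gramDet (v c) (v i) ≥ ‖v c‖²‖v i‖² - ‖v c‖⁴/|N|²`. -/
theorem node_rule (T : Finset ι) (v : ι → E) (hv : ∑ i ∈ T, v i = 0)
    (hneg : ∀ a ∈ T, ∀ b ∈ T, a ≠ b → ⟪v a, v b⟫ ≤ 0) (c : ι) (hc : c ∈ T) (N : Finset ι)
    (hN : N ⊆ T.erase c) (hNe : N.Nonempty) :
    ∃ i ∈ N, ‖v c‖ ^ 2 * ‖v i‖ ^ 2 - ‖v c‖ ^ 4 / (N.card : ℝ) ^ 2 ≤ gramDet (v c) (v i) := by
  sorry

end Crest.Agent.Propeller
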